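import Mathlib
import Vale.Agent.Lib.CubeFourier

namespace Vale.Agent.Results.P047.EvenDegree

open Vale.Agent.Lib.Cube

/-- For every even `d ≥ 2` and every Boolean function `f : {-1,1}^n → {-1,1}` of degree at most
`d` (all Fourier coefficients on sets of size `> d` vanish), the sum of the level-one Fourier
coefficients is at most `d - 1`.  Hence `M(d) ≤ d - 1` for even `d`. -/
theorem result {n : ℕ} (d : ℕ) (hd : Even d) (hd0 : 0 < d)
    (f : (Fin n → Bool) → ℝ) (hf : ∀ x, f x = 1 ∨ f x = -1)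
    (hdeg : ∀ S : Finset (Fin n), d < S.card → fhat f S = 0) :
    ∑ i, fhat f {i} ≤ (d : ℝ) - 1 := by
  have hf' : ∀ x, |f x| ≤ 1 := by
    intro x; rcases hf x with h | h <;> rw [h] <;> simp
  have h := sq_linear_sum_le f hf' d hdeg
  obtain ⟨m, hm⟩ := hd
  have hk : 2 * ((d - 1) / 2) + 1 = d - 1 := by omega
  rw [hk] at h
  have hd1 : ((d - 1 : ℕ) : ℝ) = (d : ℝ) - 1 := by
    rw [Nat.cast_sub (by omega)]; simp
  rw [hd1] at h
  have hnn : (0 : ℝ) ≤ (d : ℝ) - 1 := by
    have : (1 : ℝ) ≤ d := by exact_mod_cast hd0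
    linarith
  by_contra hcon
  rw [not_le] at hcon
  nlinarith [h]

end Vale.Agent.Results.P047.EvenDegree
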