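import Mathlib
import Vale.Agent.Lib.CubeFinal

namespace Vale.Agent.Results.P047.LinearGap

open Vale.Agent.Lib.Cube

/-- For every `d ≥ 2` and every Boolean function `f : {-1,1}^n → {-1,1}` of degree at most `d`
(all Fourier coefficients on sets of size `> d` vanish), the sum of the level-one Fourier
coefficients is at most `(143/144) d`.  Hence `M(d) ≤ (143/144) d` for all `d ≥ 2`. -/
theorem result {n : ℕ} (d : ℕ) (hd : 2 ≤ d)
    (f : (Fin n → Bool) → ℝ) (hf : ∀ x, f x = 1 ∨ f x = -1)
    (hdeg : ∀ S : Finset (Fin n), d < S.card → fhat f S = 0) :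
    ∑ i, fhat f {i} ≤ (143 / 144 : ℝ) * d :=
  linear_gap d hd f hf hdeg

end Vale.Agent.Results.P047.LinearGap
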