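import Mathlib
import Vale.Agent.Lib.CubeFinal

namespace Vale.Agent.Results.P047.OddDegree

open Vale.Agent.Lib.Cube

/-- For every odd `d ≥ 3` and every Boolean function `f : {-1,1}^n → {-1,1}` of degree at most
`d`, the sum of the level-one Fourier coefficients is at most `(71/72) d`. -/
theorem result {n : ℕ} (d : ℕ) (hd : Odd d) (hd3 : 3 ≤ d)
    (f : (Fin n → Bool) → ℝ) (hf : ∀ x, f x = 1 ∨ f x = -1)
    (hdeg : ∀ S : Finset (Fin n), d < S.card → fhat f S = 0) :
    ∑ i, fhat f {i} ≤ (71 / 72 : ℝ) * d :=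
  odd_linear d hd hd3 f hf hdeg

end Vale.Agent.Results.P047.OddDegree
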